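import Mathlib

/-!
P158: bounds for a finite product tilt of an i.i.d. field.

If the law of the coordinates in a finite set is changed by densities `f i`, the new product law has
the product density, and by Hölder the new probability of an event is at most the product of the
`L^p` norms times a power of the old probability.
-/

namespace Vale.Agent.P158

open MeasureTheory
open scoped ENNReal

variable {ι X : Type*} [MeasurableSpace X] (μ : Measure X) [IsProbabilityMeasure μ]

/-- The product density of a finite tilt. -/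
noncomputable def tiltDensity (s : Finset ι) (f : ι → X → ℝ≥0∞) (ω : ι → X) : ℝ≥0∞ :=
  ∏ i ∈ s, f i (ω i)

theorem measurable_tiltDensity (s : Finset ι) (f : ι → X → ℝ≥0∞) (hf : ∀ i, Measurable (f i)) :
    Measurable (tiltDensity s f) :=
  Finset.measurable_prod s fun i _ => (hf i).comp (measurable_pi_apply i)

theorem lintegral_prod_coord (s : Finset ι) (f : ι → X → ℝ≥0∞) (hf : ∀ i, Measurable (f i)) :
    ∫⁻ ω, ∏ i ∈ s, f i (ω i) ∂Measure.infinitePi (fun _ : ι => μ) =
      ∏ i ∈ s, ∫⁻ x, f i x ∂μ := by
  refine (ProbabilityTheory.lintegral_prod_eq_prod_lintegral_of_indepFun s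
    (fun i (ω : ι → X) => f i (ω i))
    (ProbabilityTheory.iIndepFun_infinitePi (P := fun _ : ι => μ) (X := f) hf)
    fun i => (hf i).comp (measurable_pi_apply i)).trans ?_
  exact Finset.prod_congr rfl fun i _ =>
    (measurePreserving_eval_infinitePi (fun _ : ι => μ) i).lintegral_comp (hf i)

theorem infinitePi_eq_withDensity (s : Finset ι) (f : ι → X → ℝ≥0∞)
    (hf : ∀ i, Measurable (f i)) (ν : ι → Measure X) [∀ i, IsProbabilityMeasure (ν i)]
    (hs : ∀ i ∈ s, ν i = μ.withDensity (f i)) (hn : ∀ i ∉ s, ν i = μ) :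
    Measure.infinitePi ν =
      (Measure.infinitePi fun _ : ι => μ).withDensity (tiltDensity s f) := by
  classical
  refine (Measure.eq_infinitePi ν fun t A hA => ?_).symm
  set u := s ∪ t
  set g : ι → X → ℝ≥0∞ := fun i x =>
    (if i ∈ s then f i x else 1) * (if i ∈ t then (A i).indicator 1 x else 1)
  have hg : ∀ i, Measurable (g i) := fun i => by
    simp only [g]
    split_ifs
    · exact (hf i).mul (measurable_one.indicator (hA i))
    · exact (hf i).mul measurable_const
    · exact measurable_const.mul (measurable_one.indicator (hA i))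
    · exact measurable_const
  have hpi : MeasurableSet (Set.pi (t : Set ι) A) :=
    MeasurableSet.pi t.countable_toSet fun i _ => hA i
  have key : ∀ ω : ι → X, (Set.pi (t : Set ι) A).indicator (tiltDensity s f) ω =
      ∏ i ∈ u, g i (ω i) := by
    intro ω
    have hp : (∏ i ∈ t, (A i).indicator (1 : X → ℝ≥0∞) (ω i)) =
        (Set.pi (t : Set ι) A).indicator 1 ω := by
      by_cases h : ω ∈ Set.pi (t : Set ι) A
      · rw [Set.indicator_of_mem h]
        exact Finset.prod_eq_one fun i hi => Set.indicator_of_mem (h i hi) _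
      · rw [Set.indicator_of_notMem h]
        obtain ⟨i, hi, hni⟩ : ∃ i ∈ t, ω i ∉ A i := by
          simpa [Set.mem_pi] using h
        exact Finset.prod_eq_zero hi (Set.indicator_of_notMem hni _)
    simp only [g, Finset.prod_mul_distrib, Finset.prod_ite_mem, u, Finset.union_inter_cancel_left,
      Finset.union_inter_cancel_right, hp]
    by_cases h : ω ∈ Set.pi (t : Set ι) A <;> simp [h, tiltDensity]
  rw [withDensity_apply _ hpi, ← lintegral_indicator hpi, lintegral_congr key,
    lintegral_prod_coord μ u g hg]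
  refine Eq.trans (Finset.prod_subset (Finset.subset_union_right : t ⊆ u) ?_).symm ?_
  · intro i hi hit
    simp only [g, if_neg hit, mul_one]
    have his : i ∈ s := by simpa [u, hit] using hi
    simp only [if_pos his]
    have h1 := congrArg (fun m : Measure X => m Set.univ) (hs i his)
    simp only [measure_univ, withDensity_apply _ MeasurableSet.univ, Measure.restrict_univ] at h1
    exact h1.symm
  · refine Finset.prod_congr rfl fun i hi => ?_
    simp only [g, if_pos hi]
    by_cases his : i ∈ s
    · simp only [if_pos his]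
      rw [hs i his, withDensity_apply _ (hA i), ← lintegral_indicator (hA i)]
      refine lintegral_congr fun x => ?_
      by_cases hx : x ∈ A i <;> simp [hx]
    · simp only [if_neg his, one_mul]
      rw [hn i his, lintegral_indicator_one (hA i)]

/-- Hölder bound for a finite tilt: a rare event stays rare. -/
theorem tilt_measure_le (s : Finset ι) (f : ι → X → ℝ≥0∞) (hf : ∀ i, Measurable (f i))
    (ν : ι → Measure X) [∀ i, IsProbabilityMeasure (ν i)]
    (hs : ∀ i ∈ s, ν i = μ.withDensity (f i)) (hn : ∀ i ∉ s, ν i = μ) {p q : ℝ}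
    (hpq : p.HolderConjugate q) (A : Set (ι → X)) (hA : MeasurableSet A) :
    Measure.infinitePi ν A ≤ (∏ i ∈ s, ∫⁻ x, f i x ^ p ∂μ) ^ (1 / p) *
      (Measure.infinitePi (fun _ : ι => μ) A) ^ (1 / q) := by
  rw [infinitePi_eq_withDensity μ s f hf ν hs hn, withDensity_apply _ hA,
    ← lintegral_indicator hA]
  have h1 : ∀ ω, A.indicator (tiltDensity s f) ω =
      (tiltDensity s f * A.indicator (1 : (ι → X) → ℝ≥0∞) : (ι → X) → ℝ≥0∞) ω := fun ω => by
    by_cases h : ω ∈ A <;> simp [h]
  rw [lintegral_congr h1]
  refine (ENNReal.lintegral_mul_le_Lp_mul_Lq _ hpq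
    (measurable_tiltDensity s f hf).aemeasurable
    (measurable_one.indicator hA).aemeasurable).trans (le_of_eq ?_)
  congr 1
  · congr 1
    have : ∀ ω : ι → X, tiltDensity s f ω ^ p = ∏ i ∈ s, f i (ω i) ^ p := fun ω =>
      (ENNReal.prod_rpow_of_nonneg hpq.nonneg).symm
    rw [lintegral_congr this]
    exact lintegral_prod_coord μ s (fun i x => f i x ^ p) fun i => (hf i).pow_const p
  · congr 1
    rw [← lintegral_indicator_one hA]
    refine lintegral_congr fun ω => ?_
    by_cases h : ω ∈ A <;> simp [h, hpq.symm.pos]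

/-- A density within `δ` of one has `n`-th power moment `1 + O(δ²)`. -/
theorem pow_one_add_le (n : ℕ) {x : ℝ} (hx : |x| ≤ 1) :
    (1 + x) ^ n ≤ 1 + n * x + 4 ^ n * x ^ 2 := by
  induction n with
  | zero => simp [sq_nonneg]
  | succ n ih =>
    obtain ⟨hl, hu⟩ := abs_le.1 hx
    have hn : (n : ℝ) ≤ 4 ^ n := by
      exact_mod_cast (Nat.lt_pow_self (by norm_num : 1 < 4)).le
    have hx2 := sq_nonneg x
    calc (1 + x) ^ (n + 1) = (1 + x) ^ n * (1 + x) := pow_succ _ _
      _ ≤ (1 + n * x + 4 ^ n * x ^ 2) * (1 + x) := by gcongr; linarith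
      _ ≤ 1 + ↑(n + 1) * x + 4 ^ (n + 1) * x ^ 2 := by
        rw [pow_succ (4 : ℝ)]
        push_cast
        have h4 : (0 : ℝ) ≤ 4 ^ n := by positivity
        nlinarith [mul_le_mul_of_nonneg_right hn hx2,
          mul_le_mul_of_nonneg_left hu (mul_nonneg h4 hx2), mul_nonneg h4 hx2]

end Vale.Agent.P158
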