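import Mathlib

/-!
P158: probability of missing all of finitely many disjoint cylinder events under a product measure,
and invariance of product measures under injective reindexing.
-/

namespace Vale.Agent.P158

open MeasureTheory

variable {ι : Type*} (G : Measure ℝ) [IsProbabilityMeasure G]

theorem map_comp_injective {κ : Type*} (f : κ → ι) (hf : Function.Injective f) :
    (Measure.infinitePi (fun _ : ι => G)).map (fun ω : ι → ℝ => ω ∘ f) =
      Measure.infinitePi (fun _ : κ => G) := by
  classical
  refine Measure.eq_infinitePi _ fun s t ht => ?_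
  rw [Measure.map_apply (by fun_prop) (MeasurableSet.pi s.countable_toSet fun i _ => ht i)]
  have h : (fun ω : ι → ℝ => ω ∘ f) ⁻¹' Set.pi (s : Set κ) t =
      Set.pi ((s.image f : Finset ι) : Set ι) (Function.extend f t fun _ => Set.univ) := by
    ext ω
    simp [Set.mem_pi, hf.extend_apply]
  rw [h, Measure.infinitePi_pi, Finset.prod_image fun a _ b _ hab => hf hab]
  · simp only [hf.extend_apply]
  · intro i hi
    obtain ⟨k, _, rfl⟩ := Finset.mem_image.1 hi
    rw [hf.extend_apply]
    exact ht k

theorem missBlocks (S : ℕ → Finset ι) (A : ℕ → ι → Set ℝ) (hA : ∀ k i, MeasurableSet (A k i)) :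
    ∀ N : ℕ, (∀ k < N, ∀ l < N, k ≠ l → Disjoint (S k) (S l)) →
      ∀ (s : Finset ι) (B : ι → Set ℝ), (∀ i, MeasurableSet (B i)) →
        (∀ k < N, Disjoint s (S k)) →
        (Measure.infinitePi (fun _ : ι => G)).real
            (Set.pi (s : Set ι) B ∩ {ω | ∀ k < N, ω ∉ Set.pi (S k : Set ι) (A k)}) =
          (Measure.infinitePi (fun _ : ι => G)).real (Set.pi (s : Set ι) B) *
            ∏ k ∈ Finset.range N,
              (1 - (Measure.infinitePi (fun _ : ι => G)).real (Set.pi (S k : Set ι) (A k))) := by
  classical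
  intro N
  induction N with
  | zero => intro _ s B _ _; simp
  | succ N ih =>
    intro hS s B hB hs
    set μ := Measure.infinitePi (fun _ : ι => G)
    set U := {ω : ι → ℝ | ∀ k < N, ω ∉ Set.pi (S k : Set ι) (A k)}
    have hS' : ∀ k < N, ∀ l < N, k ≠ l → Disjoint (S k) (S l) := fun k hk l hl =>
      hS k (hk.trans N.lt_succ_self) l (hl.trans N.lt_succ_self)
    set E := Set.pi (S N : Set ι) (A N)
    have hE : MeasurableSet E := MeasurableSet.pi (S N).countable_toSet fun i _ => hA N i
    have h1 : Set.pi (s : Set ι) B ∩ {ω | ∀ k < N + 1, ω ∉ Set.pi (S k : Set ι) (A k)} =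
        (Set.pi (s : Set ι) B ∩ U) \ E := by
      ext ω
      simp only [Set.mem_inter_iff, Set.mem_sdiff, Set.mem_ofPred_eq, U, E]
      constructor
      · exact fun h => ⟨⟨h.1, fun k hk => h.2 k (hk.trans N.lt_succ_self)⟩, h.2 N N.lt_succ_self⟩
      · rintro ⟨⟨h, h'⟩, h''⟩
        refine ⟨h, fun k hk => ?_⟩
        rcases Nat.lt_succ_iff_lt_or_eq.1 hk with h3 | rfl
        · exact h' k h3
        · exact h''
    set C : ι → Set ℝ := fun i => if i ∈ s then B i else A N i with hC
    have hdisj : Disjoint s (S N) := hs N N.lt_succ_self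
    have h2 : Set.pi (s : Set ι) B ∩ E = Set.pi ((s ∪ S N : Finset ι) : Set ι) C := by
      ext ω
      simp only [Set.mem_inter_iff, Set.mem_pi, Finset.mem_coe, Finset.mem_union, E, hC]
      constructor
      · rintro ⟨h, h'⟩ i hi
        split_ifs with his
        · exact h i his
        · exact h' i (hi.resolve_left his)
      · intro h
        refine ⟨fun i hi => ?_, fun i hi => ?_⟩
        · simpa [hi] using h i (Or.inl hi)
        · simpa [Finset.disjoint_right.1 hdisj hi] using h i (Or.inr hi)
    have hCm : ∀ i, MeasurableSet (C i) := fun i => by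
      rw [hC]; dsimp only; split_ifs
      · exact hB i
      · exact hA N i
    have h3 : μ.real (Set.pi ((s ∪ S N : Finset ι) : Set ι) C) =
        μ.real (Set.pi (s : Set ι) B) * μ.real E := by
      simp only [μ, measureReal_def, E, Measure.infinitePi_pi, hCm, hA, hB, implies_true]
      rw [← ENNReal.toReal_mul, Finset.prod_union hdisj]
      congr 2
      · exact Finset.prod_congr rfl fun i hi => by simp [hC, hi]
      · exact Finset.prod_congr rfl fun i hi => by simp [hC, Finset.disjoint_right.1 hdisj hi]
    have h4 := measureReal_inter_add_sdiff (μ := μ) (s := Set.pi (s : Set ι) B ∩ U) hE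
    rw [Set.inter_right_comm, h2] at h4
    have h5 := ih hS' (s ∪ S N) C hCm fun k hk => Finset.disjoint_union_left.2
      ⟨hs k (hk.trans N.lt_succ_self), hS N N.lt_succ_self k (hk.trans N.lt_succ_self) hk.ne'⟩
    have h6 := ih hS' s B hB fun k hk => hs k (hk.trans N.lt_succ_self)
    rw [h1, Finset.prod_range_succ]
    change μ.real _ = _ at h5 h6
    rw [h5, h3] at h4
    rw [h6] at h4
    linear_combination h4

theorem miss_le (S : ℕ → Finset ι) (A : ℕ → ι → Set ℝ) (hA : ∀ k i, MeasurableSet (A k i))
    (N : ℕ) (hS : ∀ k < N, ∀ l < N, k ≠ l → Disjoint (S k) (S l)) (δ : ℝ)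
    (hδ : ∀ k < N, δ ≤ (Measure.infinitePi (fun _ : ι => G)).real (Set.pi (S k : Set ι) (A k))) :
    (Measure.infinitePi (fun _ : ι => G)).real {ω | ∀ k < N, ω ∉ Set.pi (S k : Set ι) (A k)}
      ≤ (1 - δ) ^ N := by
  have h := missBlocks G S A hA N hS ∅ (fun _ => Set.univ) (fun _ => MeasurableSet.univ)
    (fun k _ => Finset.disjoint_empty_left _)
  simp only [Finset.coe_empty, Set.empty_pi, Set.univ_inter, probReal_univ, one_mul] at h
  rw [h]
  calc _ ≤ ∏ _k ∈ Finset.range N, (1 - δ) := by
        refine Finset.prod_le_prod (fun k _ => ?_) fun k hk => ?_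
        · linarith [measureReal_le_one (μ := Measure.infinitePi (fun _ : ι => G))
            (s := Set.pi (S k : Set ι) (A k))]
        · linarith [hδ k (Finset.mem_range.1 hk)]
    _ = _ := by simp

end Vale.Agent.P158
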