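import Mathlib

/-!
P158: a geodesic ray crossing a barrier block inside a strip contradicts geodesy (deterministic part).
-/

namespace Vale.Agent.P158

/-- The nearest-neighbour graph of the square lattice. -/
abbrev grid : SimpleGraph (ℤ × ℤ) :=
  SimpleGraph.fromRel fun u v : ℤ × ℤ => |u.1 - v.1| + |u.2 - v.2| = 1

theorem grid_adj_iff {u v : ℤ × ℤ} : grid.Adj u v ↔ |u.1 - v.1| + |u.2 - v.2| = 1 := by
  simp only [grid, SimpleGraph.fromRel_adj]
  constructor
  · rintro ⟨_, h | h⟩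
    · exact h
    · rwa [abs_sub_comm v.1, abs_sub_comm v.2] at h
  · exact fun h => ⟨fun e => by simp [e] at h, Or.inl h⟩

/-- A geodesic ray for the weights `ω`. -/
def IsRay (ω : Sym2 (ℤ × ℤ) → ℝ) (v : ℕ → ℤ × ℤ) : Prop :=
  Function.Injective v ∧ (∀ i, |(v i).1 - (v (i + 1)).1| + |(v i).2 - (v (i + 1)).2| = 1) ∧
    ∀ (i n : ℕ) (p : grid.Walk (v i) (v (i + n))),
      ∑ k ∈ Finset.range n, ω s(v (i + k), v (i + k + 1)) ≤ (p.edges.map ω).sum

/-- `z` lies in the block over `[X, X+L]` within `R` of the profile `h`. -/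
def InBand (X : ℤ) (L : ℕ) (h : ℤ → ℤ) (R : ℤ) (z : ℤ × ℤ) : Prop :=
  X ≤ z.1 ∧ z.1 ≤ X + L ∧ |z.2 - h z.1| ≤ R

/-- The edge labels of a block: pairs among band and detour vertices. -/
noncomputable def blockEdges (X : ℤ) (L : ℕ) (h : ℤ → ℤ) (R : ℤ) : Finset (Sym2 (ℤ × ℤ)) :=
  ((Finset.Icc X (X + L)).biUnion fun x =>
    (Finset.Icc (h x - R) (h x + R + 1)).image fun y => (x, y)).sym2

open Classical in
/-- The requirement on an edge of a barrier block. -/
noncomputable def blockReq (X : ℤ) (L : ℕ) (h : ℤ → ℤ) (R : ℤ) (a b M : ℝ)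
    (e : Sym2 (ℤ × ℤ)) : Set ℝ :=
  if ∀ z ∈ e, InBand X L h R z then Set.Icc b M else Set.Iic a

theorem mk_mem_blockEdges {X : ℤ} {L : ℕ} {h : ℤ → ℤ} {R : ℤ} {p q : ℤ × ℤ}
    (hp : X ≤ p.1 ∧ p.1 ≤ X + L ∧ h p.1 - R ≤ p.2 ∧ p.2 ≤ h p.1 + R + 1)
    (hq : X ≤ q.1 ∧ q.1 ≤ X + L ∧ h q.1 - R ≤ q.2 ∧ q.2 ≤ h q.1 + R + 1) :
    s(p, q) ∈ blockEdges X L h R := by
  simp only [blockEdges, Finset.mk_mem_sym2_iff, Finset.mem_biUnion, Finset.mem_image,
    Finset.mem_Icc]
  exact ⟨⟨p.1, ⟨hp.1, hp.2.1⟩, p.2, ⟨hp.2.2.1, hp.2.2.2⟩, rfl⟩,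
    ⟨q.1, ⟨hq.1, hq.2.1⟩, q.2, ⟨hq.2.2.1, hq.2.2.2⟩, rfl⟩⟩

theorem vertical_walk (ω : Sym2 (ℤ × ℤ) → ℝ) (x : ℤ) (c : ℝ) :
    ∀ (n : ℕ) (y : ℤ), (∀ k : ℕ, k < n → ω s((x, y + k), (x, y + k + 1)) ≤ c) →
      ∃ p : grid.Walk (x, y) (x, y + n), (p.edges.map ω).sum ≤ n * c := by
  intro n
  induction n with
  | zero => intro y _; exact ⟨(SimpleGraph.Walk.nil).copy rfl (by simp), by simp⟩
  | succ n ih =>
    intro y hk
    obtain ⟨p, hp⟩ := ih y fun k h => hk k (h.trans n.lt_succ_self)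
    have hadj : grid.Adj (x, y + n) (x, y + (n + 1 : ℕ)) := grid_adj_iff.2 (by simp)
    refine ⟨p.concat hadj, ?_⟩
    have := hk n n.lt_succ_self
    simp only [SimpleGraph.Walk.edges_concat, List.concat_eq_append, List.map_append,
      List.sum_append, List.map_cons, List.map_nil, List.sum_cons, List.sum_nil, add_zero]
    push_cast at this ⊢
    rw [← add_assoc]
    linarith

theorem stairs_walk (ω : Sym2 (ℤ × ℤ) → ℝ) (X : ℤ) (L : ℕ) (h : ℤ → ℤ) (R : ℤ) (a b M : ℝ)
    (hω : ω ∈ Set.pi (blockEdges X L h R : Set (Sym2 (ℤ × ℤ))) (blockReq X L h R a b M))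
    (hR : 0 ≤ R) (hh : ∀ x, X ≤ x → x < X + L → h (x + 1) = h x ∨ h (x + 1) = h x + 1) :
    ∀ l : ℕ, l ≤ L → ∃ p : grid.Walk (X, h X + R + 1) (X + l, h (X + l) + R + 1),
      (p.edges.map ω).sum ≤ a * (l + (h (X + l) - h X : ℤ)) := by
  intro l
  induction l with
  | zero => intro _; exact ⟨(SimpleGraph.Walk.nil).copy rfl (by simp), by simp⟩
  | succ l ih =>
    intro hl
    set x : ℤ := X + l with hx
    obtain ⟨p, hp⟩ := ih (by omega)
    have hx1 : X + ((l + 1 : ℕ) : ℤ) = x + 1 := by push_cast; ring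
    have hstep := hh x (by omega) (by omega)
    have le_of : ∀ (u : ℤ × ℤ) (q : ℤ × ℤ), ¬ InBand X L h R u →
        s(u, q) ∈ blockEdges X L h R → ω s(u, q) ≤ a := by
      intro u q hu hmem
      have h2 := hω _ hmem
      rw [blockReq, if_neg (fun hall => hu (hall u (Sym2.mem_mk_left u q)))] at h2
      exact h2
    have hout : ¬ InBand X L h R (x, h x + R + 1) := by
      rintro ⟨_, _, h3⟩
      rw [abs_le] at h3
      dsimp only at h3
      omega
    rw [hx1]
    rcases hstep with he | he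
    · have hadj : grid.Adj (x, h x + R + 1) (x + 1, h (x + 1) + R + 1) :=
        grid_adj_iff.2 (by simp [he])
      refine ⟨p.concat hadj, ?_⟩
      have := le_of _ _ hout (mk_mem_blockEdges (p := (x, h x + R + 1))
        (q := (x + 1, h (x + 1) + R + 1)) (by dsimp only; omega) (by dsimp only; omega))
      simp only [SimpleGraph.Walk.edges_concat, List.concat_eq_append, List.map_append,
        List.sum_append, List.map_cons, List.map_nil, List.sum_cons, List.sum_nil, add_zero]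
      rw [he] at this ⊢
      push_cast at hp ⊢
      linarith
    · have hadj : grid.Adj (x, h x + R + 1) (x + 1, h x + R + 1) := grid_adj_iff.2 (by simp)
      have hadj2 : grid.Adj (x + 1, h x + R + 1) (x + 1, h (x + 1) + R + 1) :=
        grid_adj_iff.2 (by simp [he])
      refine ⟨(p.concat hadj).concat hadj2, ?_⟩
      have h1 := le_of _ _ hout (mk_mem_blockEdges (p := (x, h x + R + 1))
        (q := (x + 1, h x + R + 1)) (by dsimp only; omega) (by dsimp only; omega))
      have hout2 : ¬ InBand X L h R (x + 1, h (x + 1) + R + 1) := by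
        rintro ⟨_, _, h3⟩
        rw [abs_le] at h3
        dsimp only at h3
        omega
      have h2 := le_of _ _ hout2 (mk_mem_blockEdges (p := (x + 1, h (x + 1) + R + 1))
        (q := (x + 1, h x + R + 1)) (by dsimp only; omega) (by dsimp only; omega))
      rw [Sym2.eq_swap] at h2
      simp only [SimpleGraph.Walk.edges_concat, List.concat_eq_append, List.map_append,
        List.sum_append, List.map_cons, List.map_nil, List.sum_cons, List.sum_nil, add_zero]
      rw [he] at h2 ⊢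
      push_cast at hp ⊢
      linarith

theorem no_crossing (ω : Sym2 (ℤ × ℤ) → ℝ) (v : ℕ → ℤ × ℤ) (hv : IsRay ω v)
    (X : ℤ) (L : ℕ) (h : ℤ → ℤ) (R : ℤ) (a b M : ℝ) (hR : 0 ≤ R) (ha : 0 ≤ a) (hab : a < b)
    (haM : a ≤ M)
    (hh : ∀ x, X ≤ x → x < X + L → h (x + 1) = h x ∨ h (x + 1) = h x + 1)
    (hω : ω ∈ Set.pi (blockEdges X L h R : Set (Sym2 (ℤ × ℤ))) (blockReq X L h R a b M))
    (hband : ∀ i, X ≤ (v i).1 → (v i).1 ≤ X + L → |(v i).2 - h (v i).1| ≤ R)
    (hL : 2 * R * b + 2 * (2 * R + 1) * M < (b - a) * L) (h0 : (v 0).1 ≤ X)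
    (hbig : ∃ j, X + L ≤ (v j).1) (hL1 : 1 ≤ L) : False := by
  classical
  obtain ⟨hinj, hadj, hgeo⟩ := hv
  have hlip : ∀ i, |(v i).1 - (v (i + 1)).1| ≤ 1 := fun i => by
    have := hadj i
    have := abs_nonneg ((v i).2 - (v (i + 1)).2)
    omega
  set j := Nat.find hbig with hj
  have hjx : X + L ≤ (v j).1 := Nat.find_spec hbig
  have hjmin : ∀ k < j, (v k).1 < X + L := fun k hk => not_le.1 (Nat.find_min hbig hk)
  set i := Nat.findGreatest (fun k => (v k).1 ≤ X) j with hi
  have hix : (v i).1 ≤ X := Nat.findGreatest_spec (P := fun k => (v k).1 ≤ X) (Nat.zero_le j) h0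
  have hij : i ≤ j := Nat.findGreatest_le j
  have hmax : ∀ k, i < k → k ≤ j → X < (v k).1 := fun k hk hk' =>
    not_le.1 (Nat.findGreatest_is_greatest hk hk')
  have hlt : i < j := by
    rcases hij.lt_or_eq with h1 | h1
    · exact h1
    · rw [h1] at hix; omega
  have hiX : (v i).1 = X := by
    have h1 := hmax (i + 1) (by omega) hlt
    have h2 := abs_le.1 (hlip i)
    omega
  have hjX : (v j).1 = X + L := by
    have h1 := hjmin (j - 1) (by omega)
    have h2 := abs_le.1 (hlip (j - 1))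
    rw [show j - 1 + 1 = j by omega] at h2
    omega
  have hin : ∀ k, i ≤ k → k ≤ j → InBand X L h R (v k) := by
    intro k hk hk'
    have h1 : X ≤ (v k).1 := by
      rcases hk.lt_or_eq with h2 | h2
      · exact (hmax k h2 hk').le
      · rw [← h2, hiX]
    have h3 : (v k).1 ≤ X + L := by
      rcases hk'.lt_or_eq with h2 | h2
      · exact (hjmin k h2).le
      · rw [h2, hjX]
    exact ⟨h1, h3, hband k h1 h3⟩
  obtain ⟨n, hn⟩ : ∃ n, j = i + n := ⟨j - i, by omega⟩
  have hmem : ∀ z, InBand X L h R z →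
      X ≤ z.1 ∧ z.1 ≤ X + L ∧ h z.1 - R ≤ z.2 ∧ z.2 ≤ h z.1 + R + 1 := by
    rintro z ⟨h1, h2, h3⟩
    rw [abs_le] at h3
    exact ⟨h1, h2, by omega, by omega⟩
  -- lower bound along the ray
  have hlow : ∀ m, m ≤ n → b * m ≤ ∑ k ∈ Finset.range m, ω s(v (i + k), v (i + k + 1)) ∧
      |(v i).1 - (v (i + m)).1| + |(v i).2 - (v (i + m)).2| ≤ m := by
    intro m
    induction m with
    | zero => simp
    | succ m ih =>
      intro hm
      obtain ⟨h1, h2⟩ := ih (by omega)
      have hp := hin (i + m) (by omega) (by omega)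
      have hq := hin (i + m + 1) (by omega) (by omega)
      have h3 := hω _ (mk_mem_blockEdges (hmem _ hp) (hmem _ hq))
      rw [blockReq, if_pos (by
        intro z hz
        rcases Sym2.mem_iff.1 hz with rfl | rfl
        · exact hp
        · exact hq)] at h3
      refine ⟨?_, ?_⟩
      · rw [Finset.sum_range_succ]; push_cast; linarith [h3.1]
      · have h4 := hadj (i + m)
        have h5 := abs_sub_le (v i).1 (v (i + m)).1 (v (i + m + 1)).1
        have h6 := abs_sub_le (v i).2 (v (i + m)).2 (v (i + m + 1)).2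
        rw [← add_assoc]
        push_cast
        omega
  obtain ⟨hlow1, hlow2⟩ := hlow n le_rfl
  -- the detour
  have hbi := hin i le_rfl hij
  have hbj := hin j hij le_rfl
  have hup : ∀ z, InBand X L h R z → ∃ p : grid.Walk z (z.1, h z.1 + R + 1),
      (p.edges.map ω).sum ≤ (2 * R + 1) * M := by
    intro z hz
    obtain ⟨hz1, hz2, hz3, hz4⟩ := hmem z hz
    have hz5 := (abs_le.1 hz.2.2).2
    obtain ⟨k, hk⟩ : ∃ k : ℕ, z.2 + k = h z.1 + R + 1 :=
      ⟨(h z.1 + R + 1 - z.2).toNat, by omega⟩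
    obtain ⟨p, hp⟩ := vertical_walk ω z.1 M k z.2 (by
      intro l hl
      have h3 := hω _ (mk_mem_blockEdges (p := (z.1, z.2 + l)) (q := (z.1, z.2 + l + 1))
        (X := X) (L := L) (h := h) (R := R) (by dsimp only; omega) (by dsimp only; omega))
      unfold blockReq at h3
      split_ifs at h3 with hb
      · exact h3.2
      · exact le_trans h3 haM)
    refine ⟨p.copy rfl (by rw [hk]), ?_⟩
    rw [SimpleGraph.Walk.edges_copy]
    have hkR : (k : ℝ) ≤ ((2 * R + 1 : ℤ) : ℝ) := by exact_mod_cast (show (k : ℤ) ≤ 2 * R + 1 by omega)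
    push_cast at hkR
    calc _ ≤ (k : ℝ) * M := hp
      _ ≤ _ := mul_le_mul_of_nonneg_right hkR (ha.trans haM)
  obtain ⟨p1, hp1⟩ := hup _ hbi
  obtain ⟨p3, hp3⟩ := hup _ hbj
  obtain ⟨p2, hp2⟩ := stairs_walk ω X L h R a b M hω hR hh L le_rfl
  let P : grid.Walk (v i) (v j) :=
    p1.append ((p2.copy (by rw [hiX]) (by rw [hjX])).append p3.reverse)
  have hg := hgeo i n (P.copy rfl (by rw [hn]))
  have hP : (P.edges.map ω).sum ≤
      (2 * R + 1) * M + a * (L + (h (X + L) - h X : ℤ)) + (2 * R + 1) * M := by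
    simp only [P, SimpleGraph.Walk.edges_append, SimpleGraph.Walk.edges_copy,
      SimpleGraph.Walk.edges_reverse, List.map_append, List.sum_append, List.map_reverse,
      List.sum_reverse]
    linarith
  rw [SimpleGraph.Walk.edges_copy] at hg
  set D : ℤ := h (X + L) - h X with hD
  have hDn : (L : ℤ) + D - 2 * R ≤ n := by
    have h1 := (abs_le.1 hbi.2.2)
    have h2 := (abs_le.1 hbj.2.2)
    rw [hiX] at h1
    rw [hjX] at h2
    rw [← hn] at hlow2
    have h3 := neg_abs_le ((v i).1 - (v j).1)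
    have h4 := neg_abs_le ((v i).2 - (v j).2)
    omega
  have hD0 : 0 ≤ D := by
    have : ∀ l : ℕ, l ≤ L → h X ≤ h (X + l) := by
      intro l
      induction l with
      | zero => simp
      | succ l ih =>
        intro hl
        have := ih (by omega)
        have h3 := hh (X + l) (by omega) (by omega)
        push_cast
        rw [← add_assoc]
        omega
    have := this L le_rfl
    omega
  have hDn' : (L : ℝ) + D - 2 * R ≤ n := by exact_mod_cast hDn
  have hD0' : (0 : ℝ) ≤ D := by exact_mod_cast hD0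
  nlinarith [mul_le_mul_of_nonneg_left hDn' (ha.trans hab.le), mul_nonneg (sub_pos.2 hab).le hD0']

end Vale.Agent.P158
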