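import Mathlib

/-!
P158: a law on the nonnegative reals that is not a point mass has two separated levels of positive mass.
-/

namespace Vale.Agent.P158

open MeasureTheory

theorem exists_levels (G : Measure ℝ) [IsProbabilityMeasure G] (hG0 : G (Set.Iio 0) = 0)
    (hG : ∀ x, G {x} ≠ 1) :
    ∃ a b M : ℝ, 0 ≤ a ∧ a < b ∧ a ≤ M ∧ 0 < G.real (Set.Iic a) ∧ 0 < G.real (Set.Icc b M) := by
  set A := {a : ℝ | 0 < G (Set.Iic a)} with hA
  have hAne : A.Nonempty := by
    have : Set.univ ⊆ ⋃ n : ℕ, Set.Iic (n : ℝ) := fun x _ =>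
      Set.mem_iUnion.2 ⟨⌈x⌉₊, Nat.le_ceil x⟩
    obtain ⟨n, hn⟩ := exists_measure_pos_of_not_measure_iUnion_null (μ := G)
      (s := fun n : ℕ => Set.Iic (n : ℝ)) (by
        intro h
        have := measure_mono_null this h
        simp at this)
    exact ⟨n, hn⟩
  have hA0 : ∀ a ∈ A, 0 ≤ a := fun a ha => by
    by_contra h
    have h1 : G (Set.Iic a) ≤ G (Set.Iio 0) := measure_mono fun x hx => lt_of_le_of_lt hx (not_le.1 h)
    rw [hG0] at h1
    exact absurd (lt_of_lt_of_le ha h1) (lt_irrefl _)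
  have hbdd : BddBelow A := ⟨0, hA0⟩
  set m := sInf A
  have hlow : G (Set.Iio m) = 0 := by
    have : Set.Iio m = ⋃ n : ℕ, Set.Iic (m - 1 / ((n : ℝ) + 1)) := by
      ext x
      simp only [Set.mem_Iio, Set.mem_iUnion, Set.mem_Iic]
      constructor
      · intro hx
        obtain ⟨n, hn⟩ := exists_nat_one_div_lt (sub_pos.2 hx)
        exact ⟨n, by linarith⟩
      · rintro ⟨n, hn⟩
        have : 0 < 1 / ((n : ℝ) + 1) := by positivity
        linarith
    rw [this, measure_iUnion_null_iff]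
    intro n
    by_contra h
    have : 0 < 1 / ((n : ℝ) + 1) := by positivity
    have := csInf_le hbdd (show m - 1 / ((n : ℝ) + 1) ∈ A from pos_iff_ne_zero.2 h)
    linarith
  have hhigh : G (Set.Ioi m) ≠ 0 := by
    intro h
    apply hG m
    refine (prob_compl_eq_zero_iff (measurableSet_singleton m)).1 ?_
    have : ({m} : Set ℝ)ᶜ = Set.Iio m ∪ Set.Ioi m := by
      ext x; simp [lt_or_lt_iff_ne]
    rw [this]
    exact measure_union_null hlow h
  have : Set.Ioi m = ⋃ n : ℕ, Set.Icc (m + 1 / ((n : ℝ) + 1)) (m + (n + 1)) := by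
    ext x
    simp only [Set.mem_Ioi, Set.mem_iUnion, Set.mem_Icc]
    constructor
    · intro hx
      obtain ⟨n, hn⟩ := exists_nat_one_div_lt (sub_pos.2 hx)
      refine ⟨max n ⌈x - m⌉₊, ?_, ?_⟩
      · have : 1 / (((max n ⌈x - m⌉₊ : ℕ) : ℝ) + 1) ≤ 1 / ((n : ℝ) + 1) :=
          one_div_le_one_div_of_le (by positivity)
            (by simpa using (Nat.cast_le (α := ℝ)).2 (le_max_left n ⌈x - m⌉₊))
        linarith
      · have h1 : (⌈x - m⌉₊ : ℝ) ≤ ((max n ⌈x - m⌉₊ : ℕ) : ℝ) := Nat.cast_le.2 (le_max_right _ _)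
        linarith [Nat.le_ceil (x - m)]
    · rintro ⟨n, hn, -⟩
      have : 0 < 1 / ((n : ℝ) + 1) := by positivity
      linarith
  rw [this] at hhigh
  obtain ⟨n, hn⟩ := exists_measure_pos_of_not_measure_iUnion_null hhigh
  have hb : m < m + 1 / ((n : ℝ) + 1) := lt_add_of_pos_right m (by positivity)
  obtain ⟨a, ha, hab⟩ := exists_lt_of_csInf_lt hAne hb
  refine ⟨a, m + 1 / ((n : ℝ) + 1), m + (n + 1), hA0 a ha, hab, ?_, ?_, ?_⟩
  · have : 1 / ((n : ℝ) + 1) ≤ 1 := by rw [div_le_one (by positivity)]; simp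
    have : (0 : ℝ) ≤ n := n.cast_nonneg
    linarith
  · exact ENNReal.toReal_pos ha.ne' (measure_ne_top G _)
  · exact ENNReal.toReal_pos hn.ne' (measure_ne_top G _)

end Vale.Agent.P158
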