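import Vale.Agent.P158.Strip

/-!
P158: almost surely no geodesic ray stays within bounded distance of a straight line.
-/

namespace Vale.Agent.P158

open MeasureTheory

/-- Negate on demand. -/
def sgn (j : Bool) (x : ℤ) : ℤ := if j then -x else x

theorem sgn_sgn (j : Bool) (x : ℤ) : sgn j (sgn j x) = x := by
  cases j <;> simp [sgn]

/-- Exchange on demand. -/
def swp (i : Bool) (z : ℤ × ℤ) : ℤ × ℤ := if i then z.swap else z

theorem swp_swp (i : Bool) (z : ℤ × ℤ) : swp i (swp i z) = z := by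
  cases i <;> simp [swp]

/-- A symmetry of the lattice. -/
def turn (i j l : Bool) (z : ℤ × ℤ) : ℤ × ℤ := swp i (sgn j z.1, sgn l z.2)

/-- Its inverse. -/
def unturn (i j l : Bool) (z : ℤ × ℤ) : ℤ × ℤ := (sgn j (swp i z).1, sgn l (swp i z).2)

theorem turn_unturn (i j l : Bool) (z : ℤ × ℤ) : turn i j l (unturn i j l z) = z := by
  simp [turn, unturn, sgn_sgn, swp_swp]

theorem unturn_turn (i j l : Bool) (z : ℤ × ℤ) : unturn i j l (turn i j l z) = z := by
  simp [turn, unturn, sgn_sgn, swp_swp]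

theorem sgn_dist (j : Bool) (x y : ℤ) : |sgn j x - sgn j y| = |x - y| := by
  cases j
  · simp [sgn]
  · rw [abs_sub_comm]
    simp [sgn]
    rw [show -y + x = x - y by ring]

theorem turn_dist (i j l : Bool) (u w : ℤ × ℤ) :
    |(turn i j l u).1 - (turn i j l w).1| + |(turn i j l u).2 - (turn i j l w).2| =
      |u.1 - w.1| + |u.2 - w.2| := by
  cases i
  · simp [turn, swp, sgn_dist]
  · simp [turn, swp, sgn_dist, add_comm]

theorem isRay_unturn (i j l : Bool) {ω : Sym2 (ℤ × ℤ) → ℝ} {v : ℕ → ℤ × ℤ} (hv : IsRay ω v) :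
    IsRay (ω ∘ Sym2.map (turn i j l)) (unturn i j l ∘ v) := by
  obtain ⟨hinj, hadj, hgeo⟩ := hv
  refine ⟨?_, fun n => ?_, fun n m p => ?_⟩
  · intro a b h
    apply hinj
    simpa [turn_unturn] using congrArg (turn i j l) h
  · have := turn_dist i j l (unturn i j l (v n)) (unturn i j l (v (n + 1)))
    rw [turn_unturn, turn_unturn] at this
    exact this ▸ hadj n
  · let φ : grid →g grid := ⟨turn i j l, fun h => grid_adj_iff.2 (by
      rw [turn_dist]; exact grid_adj_iff.1 h)⟩
    have h := hgeo n m ((p.map φ).copy (turn_unturn i j l _) (turn_unturn i j l _))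
    rw [SimpleGraph.Walk.edges_copy, SimpleGraph.Walk.edges_map, List.map_map] at h
    simp only [Function.comp_apply, Sym2.map_mk, turn_unturn]
    exact h

theorem finite_false {v : ℕ → ℤ × ℤ} (hv : Function.Injective v) (n : ℤ)
    (hx : ∀ i, |(v i).1| ≤ n) (hy : ∀ i, |(v i).2| ≤ n) : False := by
  have h : (Set.range v).Finite := by
    refine Set.Finite.subset ((Set.finite_Icc (-n) n).prod (Set.finite_Icc (-n) n)) ?_
    rintro _ ⟨i, rfl⟩
    exact ⟨abs_le.1 (hx i), abs_le.1 (hy i)⟩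
  exact Set.infinite_range_of_injective hv h

theorem lines_ae (G : Measure ℝ) [IsProbabilityMeasure G] (hG0 : G (Set.Iio 0) = 0)
    (hG : ∀ x, G {x} ≠ 1) :
    ∀ᵐ ω ∂Measure.infinitePi (fun _ : Sym2 (ℤ × ℤ) => G),
      ¬ ∃ v : ℕ → ℤ × ℤ, IsRay ω v ∧ ∃ α β γ w : ℝ, (α, β) ≠ (0, 0) ∧
        ∀ i, |α * (v i).1 + β * (v i).2 + γ| ≤ w := by
  have hsym : ∀ i j l : Bool, ∀ᵐ ω ∂Measure.infinitePi (fun _ : Sym2 (ℤ × ℤ) => G),
      ¬ ∃ v : ℕ → ℤ × ℤ, IsRay (ω ∘ Sym2.map (turn i j l)) v ∧ (∀ N : ℤ, ∃ k, N ≤ (v k).1) ∧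
        ∃ s c w : ℝ, 0 ≤ s ∧ s ≤ 1 ∧ ∀ k, |((v k).2 : ℝ) - (s * (v k).1 + c)| ≤ w := by
    intro i j l
    have hinj : Function.Injective (Sym2.map (turn i j l)) :=
      Sym2.map.injective (Function.LeftInverse.injective (unturn_turn i j l))
    have h := strip_ae G hG0 hG
    rw [← map_comp_injective G (Sym2.map (turn i j l)) hinj] at h
    exact ae_of_ae_map (f := fun ω : Sym2 (ℤ × ℤ) → ℝ => ω ∘ Sym2.map (turn i j l))
      (Measurable.aemeasurable (measurable_pi_iff.2 fun e => measurable_pi_apply _)) h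
  filter_upwards [ae_all_iff.2 fun i => ae_all_iff.2 fun j => ae_all_iff.2 fun l => hsym i j l]
    with ω hω
  rintro ⟨v, hv, α, β, γ, w, hne, hw⟩
  -- exchange the axes so that the line has slope at most one
  obtain ⟨i, s, c, w', hs, hs'⟩ : ∃ (i : Bool) (s c w' : ℝ), |s| ≤ 1 ∧
      ∀ k, |((swp i (v k)).2 : ℝ) - (s * (swp i (v k)).1 + c)| ≤ w' := by
    have key : ∀ (A B : ℝ), |A| ≤ |B| → (A, B) ≠ (0, 0) → ∀ (x y : ℤ), |A * x + B * y + γ| ≤ w →
        |-(A / B)| ≤ 1 ∧ |(y : ℝ) - (-(A / B) * x + -(γ / B))| ≤ w / |B| := by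
      intro A B hAB hAB' x y h
      have hB : B ≠ 0 := by
        intro hB
        apply hAB'
        subst hB
        simp only [abs_zero] at hAB
        simp [abs_nonpos_iff.1 hAB]
      refine ⟨by rw [abs_neg, abs_div]; exact (div_le_one (abs_pos.2 hB)).2 hAB, ?_⟩
      rw [le_div_iff₀ (abs_pos.2 hB), ← abs_mul]
      refine le_trans (le_of_eq ?_) h
      congr 1
      field_simp
      ring
    rcases le_total |α| |β| with h | h
    · exact ⟨false, -(α / β), -(γ / β), w / |β|, (key α β h hne _ _ (hw 0)).1,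
        fun k => (key α β h hne _ _ (hw k)).2⟩
    · have hne' : (β, α) ≠ (0, 0) := fun e => hne (by simp_all)
      have hw' : ∀ k, |β * ((v k).2 : ℝ) + α * (v k).1 + γ| ≤ w := fun k => by
        rw [add_comm (β * _)]; exact hw k
      exact ⟨true, -(β / α), -(γ / α), w / |α|, (key β α h hne' _ _ (hw' 0)).1,
        fun k => (key β α h hne' _ _ (hw' k)).2⟩
  -- reflect so that the abscissa is unbounded above
  obtain ⟨j, hj⟩ : ∃ j : Bool, ∀ N : ℤ, ∃ k, N ≤ sgn j (swp i (v k)).1 := by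
    by_contra h
    push Not at h
    obtain ⟨N1, h1⟩ := h false
    obtain ⟨N2, h2⟩ := h true
    simp only [sgn, Bool.false_eq_true, if_false, if_true] at h1 h2
    set n : ℤ := max N1 N2
    have hinj : Function.Injective fun k => swp i (v k) := fun a b e =>
      hv.1 (by simpa [swp_swp] using congrArg (swp i) e)
    have hx : ∀ k, |(swp i (v k)).1| ≤ n := fun k => abs_le.2
      ⟨by linarith [h2 k, le_max_right N1 N2], by linarith [h1 k, le_max_left N1 N2]⟩
    set n' : ℤ := ⌈w' + |c| + n⌉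
    refine finite_false hinj (max n n') (fun k => (hx k).trans (le_max_left _ _))
      (fun k => le_trans ?_ (le_max_right _ _))
    have hxk : |((swp i (v k)).1 : ℝ)| ≤ n := by exact_mod_cast hx k
    have h3 := abs_sub_abs_le_abs_sub ((swp i (v k)).2 : ℝ) (s * (swp i (v k)).1 + c)
    have h4 := abs_add_le (s * ((swp i (v k)).1 : ℝ)) c
    have h5 : |s * ((swp i (v k)).1 : ℝ)| ≤ n := by
      rw [abs_mul]
      exact le_trans (mul_le_of_le_one_left (abs_nonneg _) hs) hxk
    have h6 : ((|(swp i (v k)).2| : ℤ) : ℝ) ≤ (n' : ℝ) := by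
      push_cast
      linarith [Int.le_ceil (w' + |c| + n), hs' k]
    exact_mod_cast h6
  set s1 : ℝ := if j then -s else s with hs1
  set l : Bool := decide (s1 < 0) with hl
  refine hω i j l ⟨unturn i j l ∘ v, isRay_unturn i j l hv, hj, |s1|, if l then -c else c, w',
    abs_nonneg _, ?_, fun k => ?_⟩
  · rw [hs1]; split_ifs <;> simpa using hs
  · have hk := hs' k
    have hu : s1 * ((sgn j (swp i (v k)).1 : ℤ) : ℝ) = s * (swp i (v k)).1 := by
      rw [hs1, sgn]; split_ifs <;> push_cast <;> ring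
    simp only [Function.comp_apply, unturn]
    by_cases h : s1 < 0
    · simp only [hl, h, decide_true, sgn, if_true, abs_of_neg h]
      rw [← abs_neg] at hk
      refine le_trans (le_of_eq ?_) hk
      congr 1
      simp only [sgn] at hu
      push_cast at hu ⊢
      linarith [hu]
    · simp only [hl, h, decide_false, Bool.false_eq_true, if_false, sgn, abs_of_nonneg (not_lt.1 h)]
      refine le_trans (le_of_eq ?_) hk
      congr 1
      simp only [sgn] at hu
      linarith [hu]

end Vale.Agent.P158
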