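import Vale.Agent.P158.Blocks
import Vale.Agent.P158.Geometry
import Vale.Agent.P158.Levels

/-!
P158: almost surely no geodesic ray stays in a strip of slope in [0,1] with abscissa unbounded above.
-/

namespace Vale.Agent.P158

open MeasureTheory Filter Topology

theorem card_blockEdges_le (X : ℤ) (L : ℕ) (h : ℤ → ℤ) (R : ℕ) :
    (blockEdges X L h R).card ≤ ((L + 1) * (2 * R + 2) + 1) ^ 2 := by
  rw [blockEdges, Finset.card_sym2]
  have h1 : ((Finset.Icc X (X + L)).biUnion fun x =>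
      (Finset.Icc (h x - R) (h x + R + 1)).image fun y => (x, y)).card ≤ (L + 1) * (2 * R + 2) := by
    refine le_trans Finset.card_biUnion_le ?_
    refine le_trans (Finset.sum_le_card_nsmul _ _ (2 * R + 2) fun x _ => ?_) ?_
    · refine le_trans Finset.card_image_le ?_
      rw [Int.card_Icc]
      omega
    · rw [Int.card_Icc, smul_eq_mul, show (X + L + 1 - X).toNat = L + 1 by omega]
  refine le_trans (Nat.choose_le_pow _ 2) ?_
  exact Nat.pow_le_pow_left (by omega) 2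

theorem blockEdges_disjoint {X Y : ℤ} {L : ℕ} (hXY : X + L < Y) (h : ℤ → ℤ) (R : ℤ) :
    Disjoint (blockEdges X L h R) (blockEdges Y L h R) := by
  rw [Finset.disjoint_left]
  intro e he he'
  induction e using Sym2.ind with
  | _ p q =>
    simp only [blockEdges, Finset.mk_mem_sym2_iff, Finset.mem_biUnion, Finset.mem_image,
      Finset.mem_Icc] at he he'
    obtain ⟨⟨x, hx, y, _, rfl⟩, -⟩ := he
    obtain ⟨⟨x', hx', y', _, hxy⟩, -⟩ := he'
    simp only [Prod.mk.injEq] at hxy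
    omega

/-- A discretised line of slope `m / D` through height `c`. -/
def prof (D m : ℕ) (c : ℤ) (x : ℤ) : ℤ := (m : ℤ) * x / (D : ℤ) + c

theorem prof_step {D m : ℕ} (hD : 0 < D) (hm : m ≤ D) (c x : ℤ) :
    prof D m c (x + 1) = prof D m c x ∨ prof D m c (x + 1) = prof D m c x + 1 := by
  unfold prof
  have hD' : (0 : ℤ) < D := by exact_mod_cast hD
  have hm' : (m : ℤ) ≤ D := by exact_mod_cast hm
  have hm0 : (0 : ℤ) ≤ m := by positivity
  have h1 : (m : ℤ) * (x + 1) = (m : ℤ) * x + m := by ring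
  have h2 : (m : ℤ) * x / D ≤ ((m : ℤ) * x + m) / D := Int.ediv_le_ediv hD' (by omega)
  have h3 : ((m : ℤ) * x + m) / D ≤ ((m : ℤ) * x + D * 1) / D := Int.ediv_le_ediv hD' (by omega)
  rw [Int.add_mul_ediv_left _ _ hD'.ne'] at h3
  rw [h1]
  omega

theorem prof_approx {D : ℕ} (hD : 0 < D) (s c : ℝ) (hs : 0 ≤ s) (x : ℤ) (hx0 : 0 ≤ x)
    (hxD : x ≤ D) :
    |s * x + c - prof D ⌊s * D⌋₊ ⌊c⌋ x| ≤ 3 := by
  set m := ⌊s * D⌋₊
  have hD' : (0 : ℝ) < D := by exact_mod_cast hD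
  have hm1 : (m : ℝ) ≤ s * D := Nat.floor_le (by positivity)
  have hm2 : s * D < m + 1 := Nat.lt_floor_add_one _
  set q := (m : ℤ) * x / (D : ℤ)
  have hq1 : q * (D : ℤ) ≤ (m : ℤ) * x := Int.ediv_mul_le _ (by positivity)
  have hq2 : (m : ℤ) * x < (q + 1) * (D : ℤ) := Int.lt_ediv_add_one_mul_self _ (by positivity)
  have hq1' : (q : ℝ) * D ≤ m * x := by exact_mod_cast hq1
  have hq2' : (m : ℝ) * x < (q + 1) * D := by exact_mod_cast hq2
  have hx0' : (0 : ℝ) ≤ x := by exact_mod_cast hx0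
  have hxD' : (x : ℝ) ≤ D := by exact_mod_cast hxD
  have h1 : (q : ℝ) ≤ s * x := by
    by_contra h
    nlinarith [mul_le_mul_of_nonneg_right hm1 hx0']
  have h2 : s * x ≤ q + 2 := by
    by_contra h
    nlinarith [mul_le_mul_of_nonneg_right hm2.le hx0']
  have hc1 := Int.floor_le c
  have hc2 := Int.lt_floor_add_one c
  simp only [prof]
  push_cast
  rw [abs_le]
  constructor <;> linarith

theorem measurable_blockReq (X : ℤ) (L : ℕ) (h : ℤ → ℤ) (R : ℤ) (a b M : ℝ) (e : Sym2 (ℤ × ℤ)) :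
    MeasurableSet (blockReq X L h R a b M e) := by
  unfold blockReq
  split_ifs
  · exact measurableSet_Icc
  · exact measurableSet_Iic

theorem strip_ae (G : Measure ℝ) [IsProbabilityMeasure G] (hG0 : G (Set.Iio 0) = 0)
    (hG : ∀ x, G {x} ≠ 1) :
    ∀ᵐ ω ∂Measure.infinitePi (fun _ : Sym2 (ℤ × ℤ) => G),
      ¬ ∃ v : ℕ → ℤ × ℤ, IsRay ω v ∧ (∀ N : ℤ, ∃ i, N ≤ (v i).1) ∧
        ∃ s c w : ℝ, 0 ≤ s ∧ s ≤ 1 ∧ ∀ i, |((v i).2 : ℝ) - (s * (v i).1 + c)| ≤ w := by
  obtain ⟨a, b, M, ha, hab, haM, hpa, hpb⟩ := exists_levels G hG0 hG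
  set μ := Measure.infinitePi (fun _ : Sym2 (ℤ × ℤ) => G)
  set q := min (G.real (Set.Iic a)) (G.real (Set.Icc b M)) with hq
  have hq0 : 0 < q := lt_min hpa hpb
  have hq1 : q ≤ 1 := le_trans (min_le_left _ _) measureReal_le_one
  have hblock : ∀ (X : ℤ) (L R : ℕ) (h : ℤ → ℤ), q ^ (((L + 1) * (2 * R + 2) + 1) ^ 2) ≤
      μ.real (Set.pi (blockEdges X L h R : Set (Sym2 (ℤ × ℤ))) (blockReq X L h R a b M)) := by
    intro X L R h
    rw [measureReal_def, Measure.infinitePi_pi _ fun e _ => measurable_blockReq X L h R a b M e,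
      ENNReal.toReal_prod]
    refine le_trans (pow_le_pow_of_le_one hq0.le hq1 (card_blockEdges_le X L h R)) ?_
    rw [← Finset.prod_const]
    refine Finset.prod_le_prod (fun _ _ => hq0.le) fun e _ => ?_
    rw [← measureReal_def]
    unfold blockReq
    split_ifs
    · exact min_le_right _ _
    · exact min_le_left _ _
  -- the length of a block for a given width
  have hlen : ∀ R : ℕ, ∃ L : ℕ, 1 ≤ L ∧
      2 * (R : ℝ) * b + 2 * (2 * R + 1) * M < (b - a) * L := by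
    intro R
    obtain ⟨L, hL⟩ := exists_nat_gt ((2 * (R : ℝ) * b + 2 * (2 * R + 1) * M) / (b - a))
    refine ⟨L + 1, by omega, ?_⟩
    rw [div_lt_iff₀ (sub_pos.2 hab)] at hL
    push_cast
    nlinarith
  choose Lof hL1 hL using hlen
  let Bad : ℕ → ℕ → ℕ → ℕ → Set (Sym2 (ℤ × ℤ) → ℝ) := fun R k0 C N =>
    ⋃ m ∈ Finset.range ((k0 + N) * (Lof R + 1) + 1), ⋃ c ∈ Finset.Icc (-(C : ℤ)) C,
      {ω | ∀ k < N, ω ∉ Set.pi (blockEdges ((k0 + k : ℕ) * ((Lof R : ℤ) + 1)) (Lof R)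
          (prof ((k0 + N) * (Lof R + 1)) m c) R : Set (Sym2 (ℤ × ℤ)))
        (blockReq ((k0 + k : ℕ) * ((Lof R : ℤ) + 1)) (Lof R)
          (prof ((k0 + N) * (Lof R + 1)) m c) R a b M)}
  have hnull : ∀ R k0 C : ℕ, μ (⋂ N, Bad R k0 C N) = 0 := by
    intro R k0 C
    rw [← measureReal_eq_zero_iff]
    refine le_antisymm ?_ measureReal_nonneg
    set δ := q ^ (((Lof R + 1) * (2 * R + 2) + 1) ^ 2)
    have hδ0 : 0 < δ := pow_pos hq0 _
    have hδ1 : δ ≤ 1 := pow_le_one₀ hq0.le hq1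
    have hbound : ∀ N : ℕ, μ.real (⋂ N, Bad R k0 C N) ≤
        (((k0 + N) * (Lof R + 1) + 1 : ℕ) : ℝ) * ((2 * C + 1 : ℕ) : ℝ) * (1 - δ) ^ N := by
      intro N
      refine le_trans (measureReal_mono (Set.iInter_subset _ N) (measure_ne_top μ _)) ?_
      refine le_trans (measureReal_biUnion_finset_le _ _) ?_
      refine le_trans (Finset.sum_le_card_nsmul _ _
        (((2 * C + 1 : ℕ) : ℝ) * (1 - δ) ^ N) fun m _ => ?_) ?_
      · refine le_trans (measureReal_biUnion_finset_le _ _) ?_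
        refine le_trans (Finset.sum_le_card_nsmul _ _ ((1 - δ) ^ N) fun c _ => ?_) ?_
        · refine miss_le G _ _ (fun k e => measurable_blockReq _ _ _ _ a b M e) N ?_ δ ?_
          · intro k _ l _ hkl
            rcases Nat.lt_or_gt_of_ne hkl with h | h
            · refine blockEdges_disjoint ?_ _ _
              have : ((k : ℤ) + 1) * ((Lof R : ℤ) + 1) ≤ (l : ℤ) * ((Lof R : ℤ) + 1) :=
                mul_le_mul_of_nonneg_right (by exact_mod_cast h) (by positivity)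
              push_cast
              nlinarith
            · refine (blockEdges_disjoint ?_ _ _).symm
              have : ((l : ℤ) + 1) * ((Lof R : ℤ) + 1) ≤ (k : ℤ) * ((Lof R : ℤ) + 1) :=
                mul_le_mul_of_nonneg_right (by exact_mod_cast h) (by positivity)
              push_cast
              nlinarith
          · exact fun k _ => hblock _ _ _ _
        · rw [nsmul_eq_mul, Int.card_Icc, show ((C : ℤ) + 1 - -(C : ℤ)).toNat = 2 * C + 1 by omega]
      · rw [nsmul_eq_mul, Finset.card_range, mul_assoc]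
    have hlim : Tendsto (fun N : ℕ => (((k0 + N) * (Lof R + 1) + 1 : ℕ) : ℝ) *
        ((2 * C + 1 : ℕ) : ℝ) * (1 - δ) ^ N) atTop (𝓝 0) := by
      have h1 := tendsto_pow_atTop_nhds_zero_of_lt_one (r := 1 - δ) (by linarith) (by linarith)
      have h2 := tendsto_self_mul_const_pow_of_lt_one (r := 1 - δ) (by linarith) (by linarith)
      have := ((h1.const_mul ((((k0 : ℕ) : ℝ) * (Lof R + 1) + 1) * (2 * C + 1))).add
        (h2.const_mul (((Lof R : ℝ) + 1) * (2 * C + 1))))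
      simp only [mul_zero, add_zero] at this
      refine this.congr fun N => ?_
      push_cast
      ring
    exact ge_of_tendsto' hlim hbound
  have hae : ∀ R k0 C : ℕ, ∀ᵐ ω ∂μ, ∃ N, ω ∉ Bad R k0 C N := by
    intro R k0 C
    rw [ae_iff]
    refine measure_mono_null (fun ω hω => ?_) (hnull R k0 C)
    simpa using hω
  filter_upwards [ae_all_iff.2 fun R => ae_all_iff.2 fun k0 => ae_all_iff.2 fun C => hae R k0 C]
    with ω hω
  rintro ⟨v, hv, hunb, s, c, w, hs0, hs1, hw⟩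
  set R : ℕ := ⌈w + 3⌉₊ with hR
  set L := Lof R
  set k0 : ℕ := ((v 0).1).toNat
  obtain ⟨C, hC⟩ : ∃ C : ℕ, -(C : ℤ) ≤ ⌊c⌋ ∧ ⌊c⌋ ≤ C := ⟨⌊c⌋.natAbs, by omega, by omega⟩
  obtain ⟨N, hN⟩ := hω R k0 C
  set D : ℕ := (k0 + N) * (L + 1) with hDdef
  set m := ⌊s * (D : ℝ)⌋₊ with hm
  have hmD : m ≤ D := by
    refine Nat.floor_le_of_le ?_
    exact mul_le_of_le_one_left (by positivity) hs1
  simp only [Bad, Set.mem_iUnion, not_exists, Set.mem_ofPred_eq, not_forall, not_not] at hN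
  obtain ⟨k, hk, hgood⟩ := hN m (Finset.mem_range.2 (Nat.lt_succ_of_le hmD)) ⌊c⌋ (Finset.mem_Icc.2 hC)
  set X : ℤ := ((k0 + k : ℕ) : ℤ) * ((L : ℤ) + 1) with hX
  have hXk : ((k0 + k : ℕ) : ℤ) ≤ X := le_mul_of_one_le_right (by positivity) (by omega)
  have hXD : X + L < D := by
    have : (((k0 + k : ℕ) : ℤ) + 1) * ((L : ℤ) + 1) ≤ (((k0 + N : ℕ)) : ℤ) * ((L : ℤ) + 1) :=
      mul_le_mul_of_nonneg_right (by omega) (by positivity)
    rw [hDdef]
    push_cast at this ⊢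
    rw [hX]
    push_cast
    nlinarith
  have hDpos : 0 < D := by omega
  refine no_crossing ω v hv X L (prof D m ⌊c⌋) R a b M (by positivity) ha hab haM
    (fun x _ _ => prof_step hDpos hmD ⌊c⌋ x) hgood (fun i hi hi' => ?_) ?_ (by omega)
    (hunb _) (hL1 R)
  · have h1 := prof_approx hDpos s c hs0 (v i).1 (by omega) (by omega)
    have h2 := hw i
    have h3 : |(((v i).2 - prof D m ⌊c⌋ (v i).1 : ℤ) : ℝ)| ≤ (R : ℝ) := by
      push_cast
      refine le_trans ?_ (Nat.le_ceil (w + 3))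
      calc _ ≤ |((v i).2 : ℝ) - (s * (v i).1 + c)| + |s * (v i).1 + c - prof D m ⌊c⌋ (v i).1| :=
            abs_sub_le _ _ _
        _ ≤ _ := add_le_add h2 h1
    exact_mod_cast h3
  · exact_mod_cast hL R

end Vale.Agent.P158
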